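import Mathlib

namespace Vale.Agent.Results.P322.AllParities

open Finset

/-- Mutual information, in bits, of the finite-valued random variables `U` and `V` on the finite
probability space `Ω` with point masses `μ`. -/
noncomputable def mutualInfo {Ω A B : Type} [Fintype Ω] [Fintype A] [Fintype B]
    [DecidableEq A] [DecidableEq B] (μ : Ω → ℝ) (U : Ω → A) (V : Ω → B) : ℝ :=
  ∑ a, ∑ b, (∑ ω with U ω = a ∧ V ω = b, μ ω) *
    Real.logb 2 ((∑ ω with U ω = a ∧ V ω = b, μ ω) /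
      ((∑ ω with U ω = a, μ ω) * (∑ ω with V ω = b, μ ω)))

/-- The joint law of `(X, Y)`: `X` uniform on the cube of sign vectors, `Y` obtained from `X` by
flipping every coordinate independently with probability `ε`. -/
noncomputable def bscLaw (n : ℕ) (ε : ℝ) (ω : (Fin n → ℤˣ) × (Fin n → ℤˣ)) : ℝ :=
  (1 / 2) ^ n * ∏ i, (if ω.1 i = ω.2 i then 1 - ε else ε)

/-- The binary entropy function in bits. -/
noncomputable def h2 (p : ℝ) : ℝ := -(p * Real.logb 2 p) - (1 - p) * Real.logb 2 (1 - p)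

/-- psi t = ((1+t) log (1+t) + (1-t) log (1-t)) / 2 -/
noncomputable def psi (t : ℝ) : ℝ := ((1 + t) * Real.log (1 + t) + (1 - t) * Real.log (1 - t)) / 2

lemma psi_neg (t : ℝ) : psi (-t) = psi t := by
  unfold psi
  have h1 : 1 + -t = 1 - t := by ring
  have h2 : 1 - -t = 1 + t := by ring
  rw [h1, h2]; ring

lemma psi_zero : psi 0 = 0 := by simp [psi]

lemma psi_continuous : Continuous psi := by
  unfold psi
  have h := Real.continuous_mul_log
  have h1 : Continuous (fun t : ℝ => (1 + t) * Real.log (1 + t)) :=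
    h.comp (continuous_const.add continuous_id)
  have h2 : Continuous (fun t : ℝ => (1 - t) * Real.log (1 - t)) :=
    h.comp (continuous_const.sub continuous_id)
  exact (h1.add h2).div_const 2

lemma psi_comp_hasDerivAt {a t : ℝ} (h1 : -1 < a * t) (h2 : a * t < 1) :
    HasDerivAt (fun s => psi (a * s))
      (a * ((Real.log (1 + a * t) - Real.log (1 - a * t)) / 2)) t := by
  unfold psi
  have hu : HasDerivAt (fun s : ℝ => 1 + a * s) a t := by
    simpa using ((hasDerivAt_id t).const_mul a).const_add 1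
  have hv : HasDerivAt (fun s : ℝ => 1 - a * s) (-a) t := by
    simpa using ((hasDerivAt_id t).const_mul a).const_sub 1
  have hu0 : 1 + a * t ≠ 0 := by linarith
  have hv0 : 1 - a * t ≠ 0 := by linarith
  have ha := hu.mul (hu.log hu0)
  have hb := hv.mul (hv.log hv0)
  have key : HasDerivAt (fun s : ℝ => ((1 + a * s) * Real.log (1 + a * s) +
      (1 - a * s) * Real.log (1 - a * s)) / 2) _ t := (ha.add hb).div_const 2
  refine key.congr_deriv ?_
  field_simp
  ring

lemma L_le {a t : ℝ} (ha0 : 0 ≤ a) (ha1 : a ≤ 1) (ht0 : 0 ≤ t) (ht1 : t < 1) :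
    Real.log (1 + a * t) - Real.log (1 - a * t) ≤ a * (Real.log (1 + t) - Real.log (1 - t)) := by
  have hat0 : 0 ≤ a * t := mul_nonneg ha0 ht0
  have hat : a * t < 1 := lt_of_le_of_lt (mul_le_of_le_one_left ht0 ha1) ht1
  have h1 := Real.hasSum_log_sub_log_of_abs_lt_one (x := a * t) (by rw [abs_of_nonneg hat0]; exact hat)
  have h2 := (Real.hasSum_log_sub_log_of_abs_lt_one (x := t) (by rw [abs_of_nonneg ht0]; exact ht1)).mul_left a
  refine hasSum_le ?_ h1 h2
  intro k
  have hk : (a * t) ^ (2 * k + 1) ≤ a * t ^ (2 * k + 1) := by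
    rw [mul_pow, pow_succ a]
    have : a ^ (2 * k) ≤ 1 := pow_le_one₀ ha0 ha1
    have ht : 0 ≤ t ^ (2 * k + 1) := pow_nonneg ht0 _
    nlinarith [mul_nonneg ha0 ht, mul_nonneg (mul_nonneg ha0 ht) (sub_nonneg.mpr this)]
  have hc : (0 : ℝ) ≤ 2 * (1 / (2 * (k : ℝ) + 1)) := by positivity
  calc 2 * (1 / (2 * (k : ℝ) + 1)) * (a * t) ^ (2 * k + 1)
      ≤ 2 * (1 / (2 * (k : ℝ) + 1)) * (a * t ^ (2 * k + 1)) := mul_le_mul_of_nonneg_left hk hc
    _ = a * (2 * (1 / (2 * (k : ℝ) + 1)) * t ^ (2 * k + 1)) := by ring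

lemma psi_scale_nonneg {a t : ℝ} (ha0 : 0 ≤ a) (ha1 : a ≤ 1) (ht0 : 0 ≤ t) (ht1 : t ≤ 1) :
    psi (a * t) ≤ a ^ 2 * psi t := by
  have hder : ∀ s ∈ Set.Ioo (0 : ℝ) 1, HasDerivAt (fun s : ℝ => a ^ 2 * psi (1 * s) - psi (a * s))
      (a ^ 2 * (1 * ((Real.log (1 + 1 * s) - Real.log (1 - 1 * s)) / 2)) -
        a * ((Real.log (1 + a * s) - Real.log (1 - a * s)) / 2)) s := by
    intro s hs
    have has : a * s < 1 := lt_of_le_of_lt (mul_le_of_le_one_left hs.1.le ha1) hs.2
    have has0 : 0 ≤ a * s := mul_nonneg ha0 hs.1.le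
    have d1 := (psi_comp_hasDerivAt (a := 1) (t := s) (by linarith [hs.1]) (by linarith [hs.2])).const_mul (a ^ 2)
    have d2 := psi_comp_hasDerivAt (a := a) (t := s) (by linarith) has
    exact d1.sub d2
  have hmono : MonotoneOn (fun s : ℝ => a ^ 2 * psi (1 * s) - psi (a * s)) (Set.Icc 0 1) := by
    apply monotoneOn_of_deriv_nonneg (convex_Icc 0 1)
    · apply Continuous.continuousOn
      exact (continuous_const.mul (psi_continuous.comp (continuous_const.mul continuous_id))).sub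
        (psi_continuous.comp (continuous_const.mul continuous_id))
    · intro s hs
      rw [interior_Icc] at hs
      exact (hder s hs).differentiableAt.differentiableWithinAt
    · intro s hs
      rw [interior_Icc] at hs
      rw [(hder s hs).deriv]
      have hL := L_le ha0 ha1 hs.1.le hs.2
      simp only [one_mul]
      nlinarith [mul_nonneg ha0 (sub_nonneg.mpr hL)]
  have h := hmono (Set.left_mem_Icc.mpr zero_le_one) ⟨ht0, ht1⟩ ht0
  simp only [mul_zero, psi_zero, sub_zero, one_mul] at h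
  linarith

lemma psi_scale {a t : ℝ} (ha : |a| ≤ 1) (ht0 : 0 ≤ t) (ht1 : t ≤ 1) :
    psi (a * t) ≤ a ^ 2 * psi t := by
  rcases le_total 0 a with h | h
  · exact psi_scale_nonneg h (by rwa [abs_of_nonneg h] at ha) ht0 ht1
  · have h' := psi_scale_nonneg (a := -a) (by linarith) (by rwa [abs_of_nonpos h] at ha) ht0 ht1
    rw [neg_mul, psi_neg] at h'
    simpa using h'

lemma mul_log_ge {x : ℝ} (hx : 0 ≤ x) : x - 1 ≤ x * Real.log x := by
  rcases hx.eq_or_lt with h | h
  · rw [← h]; simp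
  · have := Real.one_sub_inv_le_log_of_pos h
    have h2 : x * (1 - x⁻¹) ≤ x * Real.log x := mul_le_mul_of_nonneg_left this h.le
    have h3 : x * (1 - x⁻¹) = x - 1 := by field_simp
    linarith

lemma psi_nonneg {t : ℝ} (ht0 : -1 ≤ t) (ht1 : t ≤ 1) : 0 ≤ psi t := by
  unfold psi
  have h1 := mul_log_ge (x := 1 + t) (by linarith)
  have h2 := mul_log_ge (x := 1 - t) (by linarith)
  linarith

variable {n : ℕ}

/-- the real number `1` or `-1` attached to a sign -/
def sgn (u : ℤˣ) : ℝ := ((u : ℤ) : ℝ)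

lemma sgn_one : sgn 1 = 1 := by simp [sgn]
lemma sgn_neg_one : sgn (-1) = -1 := by simp [sgn]
lemma sgn_mul (u v : ℤˣ) : sgn (u * v) = sgn u * sgn v := by simp [sgn]
lemma sgn_neg (u : ℤˣ) : sgn (-u) = - sgn u := by simp [sgn]
lemma sgn_sq (u : ℤˣ) : sgn u * sgn u = 1 := by
  rcases Int.units_eq_one_or u with h | h <;> simp [h, sgn]
lemma sgn_abs (u : ℤˣ) : |sgn u| = 1 := by
  rcases Int.units_eq_one_or u with h | h <;> simp [h, sgn]
lemma sgn_prod (S : Finset (Fin n)) (x : Fin n → ℤˣ) : sgn (∏ i ∈ S, x i) = ∏ i ∈ S, sgn (x i) := by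
  simp [sgn]

lemma sum_units (F : ℤˣ → ℝ) : ∑ c : ℤˣ, F c = F 1 + F (-1) := by
  rw [show (Finset.univ : Finset ℤˣ) = {1, -1} from rfl]
  rw [Finset.sum_pair (by decide)]

lemma ind_eq (v c : ℤˣ) : (if v = c then (1 : ℝ) else 0) = (1 + sgn c * sgn v) / 2 := by
  rcases Int.units_eq_one_or v with h | h <;> rcases Int.units_eq_one_or c with h' | h' <;>
    simp [h, h', sgn]

lemma wt_eq (ε : ℝ) (s c : ℤˣ) :
    (if s = c then 1 - ε else ε) = (1 + (1 - 2 * ε) * sgn c * sgn s) / 2 := by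
  rcases Int.units_eq_one_or s with h | h <;> rcases Int.units_eq_one_or c with h' | h' <;>
    simp [h, h', sgn] <;> ring

def flipc (i : Fin n) (x : Fin n → ℤˣ) : Fin n → ℤˣ := Function.update x i (-x i)

lemma flipc_flipc (i : Fin n) (x : Fin n → ℤˣ) : flipc i (flipc i x) = x := by
  unfold flipc
  ext j
  by_cases h : j = i
  · subst h; simp
  · simp [Function.update_of_ne h]

lemma sum_flipc (i : Fin n) (F : (Fin n → ℤˣ) → ℝ) : ∑ x, F (flipc i x) = ∑ x, F x :=
  Equiv.sum_comp (Function.Involutive.toPerm (flipc i) (flipc_flipc i)) F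

/-- the character of the cube attached to `S`, real valued -/
def chi (S : Finset (Fin n)) (x : Fin n → ℤˣ) : ℝ := sgn (∏ i ∈ S, x i)

lemma chi_flipc_mem {S : Finset (Fin n)} {i : Fin n} (hi : i ∈ S) (x : Fin n → ℤˣ) :
    chi S (flipc i x) = - chi S x := by
  unfold chi flipc
  rw [Finset.prod_update_of_mem hi, ← Finset.mul_prod_erase S x hi, ← sgn_neg]
  congr 1
  rw [Finset.sdiff_singleton_eq_erase]
  simp

lemma chi_flipc_notMem {S : Finset (Fin n)} {i : Fin n} (hi : i ∉ S) (x : Fin n → ℤˣ) :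
    chi S (flipc i x) = chi S x := by
  unfold chi flipc
  rw [Finset.prod_update_of_notMem hi]

lemma chi_sq (S : Finset (Fin n)) (x : Fin n → ℤˣ) : chi S x * chi S x = 1 := sgn_sq _
lemma chi_abs (S : Finset (Fin n)) (x : Fin n → ℤˣ) : |chi S x| = 1 := sgn_abs _

lemma sum_eq_zero_of_flip (i : Fin n) (G : (Fin n → ℤˣ) → ℝ) (hG : ∀ x, G (flipc i x) = - G x) :
    ∑ x, G x = 0 := by
  have h := sum_flipc i G
  rw [Finset.sum_congr rfl (fun x _ => hG x), Finset.sum_neg_distrib] at h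
  linarith

lemma sum_one : (1 / 2 : ℝ) ^ n * ∑ _x : Fin n → ℤˣ, (1 : ℝ) = 1 := by
  simp

lemma sum_chi {S : Finset (Fin n)} (hS : S.Nonempty) : ∑ x : Fin n → ℤˣ, chi S x = 0 := by
  obtain ⟨i, hi⟩ := hS
  exact sum_eq_zero_of_flip i _ (fun x => chi_flipc_mem hi x)

lemma sum_chi_chi (S T : Finset (Fin n)) :
    (1 / 2 : ℝ) ^ n * ∑ x : Fin n → ℤˣ, chi S x * chi T x = if S = T then 1 else 0 := by
  by_cases h : S = T
  · subst h
    simp only [chi_sq, if_true]
    exact sum_one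
  · rw [if_neg h]
    have : ∃ i, (i ∈ S ∧ i ∉ T) ∨ (i ∉ S ∧ i ∈ T) := by
      by_contra hcon
      push Not at hcon
      apply h
      ext i
      constructor
      · intro hi; exact (hcon i).1 hi
      · intro hi; by_contra hS; exact (hcon i).2 hS hi
    obtain ⟨i, hi⟩ := this
    rw [sum_eq_zero_of_flip i, mul_zero]
    intro x
    rcases hi with ⟨h1, h2⟩ | ⟨h1, h2⟩
    · rw [chi_flipc_mem h1, chi_flipc_notMem h2]; ring
    · rw [chi_flipc_notMem h1, chi_flipc_mem h2]; ring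

lemma bessel_gen {Ω K : Type} [Fintype Ω] [Fintype K] [DecidableEq K] (N : ℝ) (hN0 : 0 ≤ N)
    (e : K → Ω → ℝ) (horth : ∀ k l, N * ∑ x, e k x * e l x = if k = l then 1 else 0)
    (g : Ω → ℝ) :
    ∑ k, (N * ∑ x, g x * e k x) ^ 2 ≤ N * ∑ x, g x ^ 2 := by
  set a : K → ℝ := fun k => N * ∑ x, g x * e k x with ha
  have hpos : 0 ≤ N * ∑ x, (g x - ∑ k, a k * e k x) ^ 2 :=
    mul_nonneg hN0 (Finset.sum_nonneg (fun x _ => sq_nonneg _))
  have e1 : ∀ x : Ω, (g x - ∑ k, a k * e k x) ^ 2 =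
      g x ^ 2 - 2 * (∑ k, a k * (g x * e k x)) + ∑ k, ∑ l, a k * a l * (e k x * e l x) := by
    intro x
    have h1 : (∑ k, a k * e k x) ^ 2 = ∑ k, ∑ l, a k * a l * (e k x * e l x) := by
      rw [sq, Finset.sum_mul_sum]
      apply Finset.sum_congr rfl; intro i _
      apply Finset.sum_congr rfl; intro j _
      ring
    have h2 : ∑ k, a k * (g x * e k x) = g x * ∑ k, a k * e k x := by
      rw [Finset.mul_sum]
      apply Finset.sum_congr rfl; intro i _; ring
    rw [← h1, h2]; ring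
  rw [Finset.sum_congr rfl (fun x _ => e1 x)] at hpos
  simp only [Finset.sum_add_distrib, Finset.sum_sub_distrib, ← Finset.mul_sum] at hpos
  have t1 : N * ∑ x : Ω, ∑ k, a k * (g x * e k x) = ∑ k, a k ^ 2 := by
    rw [Finset.sum_comm, Finset.mul_sum]
    apply Finset.sum_congr rfl; intro i _
    rw [← Finset.mul_sum, sq]
    simp only [ha]; ring
  have t3 : N * ∑ x : Ω, ∑ k, ∑ l, a k * a l * (e k x * e l x) = ∑ k, a k ^ 2 := by
    rw [Finset.sum_comm, Finset.mul_sum]
    apply Finset.sum_congr rfl; intro i _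
    rw [Finset.sum_comm, Finset.mul_sum]
    have : ∀ j, N * ∑ x : Ω, a i * a j * (e i x * e j x) =
        a i * a j * (if i = j then 1 else 0) := by
      intro j
      rw [← horth i j, ← Finset.mul_sum]; ring
    rw [Finset.sum_congr rfl (fun j _ => this j)]
    simp [sq]
  have e2 : N * (∑ x, g x ^ 2 - 2 * ∑ i : Ω, ∑ k, a k * (g i * e k i) +
        ∑ x : Ω, ∑ k, ∑ l, a k * a l * (e k x * e l x)) =
      N * ∑ x, g x ^ 2 - 2 * (N * ∑ i : Ω, ∑ k, a k * (g i * e k i)) +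
        N * ∑ x : Ω, ∑ k, ∑ l, a k * a l * (e k x * e l x) := by ring
  rw [e2, t1, t3] at hpos
  have goal : ∑ k, a k ^ 2 ≤ N * ∑ x, g x ^ 2 := by linarith
  exact goal

lemma sum_prod_wt (ε : ℝ) (x : Fin n → ℤˣ) :
    ∑ y : Fin n → ℤˣ, ∏ j, (if x j = y j then 1 - ε else ε) = 1 := by
  have h := Finset.prod_univ_sum (fun _ : Fin n => (univ : Finset ℤˣ))
    (fun j b => if x j = b then 1 - ε else ε)
  rw [Fintype.piFinset_univ] at h
  rw [← h]
  apply Finset.prod_eq_one
  intro j _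
  rw [sum_units]
  rcases Int.units_eq_one_or (x j) with hx | hx <;> simp [hx]

lemma sum_prod_wt_chi (ε : ℝ) (x : Fin n → ℤˣ) (S : Finset (Fin n)) :
    ∑ y : Fin n → ℤˣ, (∏ j, (if x j = y j then 1 - ε else ε)) * chi S y
      = (1 - 2 * ε) ^ S.card * chi S x := by
  have h := Finset.prod_univ_sum (fun _ : Fin n => (univ : Finset ℤˣ))
    (fun j b => (if x j = b then 1 - ε else ε) * (if j ∈ S then sgn b else 1))
  rw [Fintype.piFinset_univ] at h
  have h1 : ∀ y : Fin n → ℤˣ,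
      (∏ j, (if x j = y j then 1 - ε else ε) * (if j ∈ S then sgn (y j) else 1)) =
      (∏ j, (if x j = y j then 1 - ε else ε)) * chi S y := by
    intro y
    rw [Finset.prod_mul_distrib, chi, sgn_prod, Finset.prod_ite_mem, Finset.univ_inter]
  rw [← Finset.sum_congr rfl (fun y _ => h1 y), ← h]
  have h2 : ∀ j : Fin n, (∑ b : ℤˣ, (if x j = b then 1 - ε else ε) * (if j ∈ S then sgn b else 1))
      = if j ∈ S then (1 - 2 * ε) * sgn (x j) else 1 := by
    intro j
    rw [sum_units]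
    by_cases hj : j ∈ S
    · simp only [hj, if_true]
      rcases Int.units_eq_one_or (x j) with hx | hx <;> simp [hx, sgn] <;> ring
    · simp only [hj, if_false]
      rcases Int.units_eq_one_or (x j) with hx | hx <;> simp [hx]
  rw [Finset.prod_congr rfl (fun j _ => h2 j), Finset.prod_ite_mem, Finset.univ_inter,
    Finset.prod_mul_distrib, Finset.prod_const, chi, sgn_prod]

lemma sum_prod_wt_par (ε : ℝ) (x : Fin n → ℤˣ) (S : Finset (Fin n)) (c : ℤˣ) :
    ∑ y : Fin n → ℤˣ, (if ∏ i ∈ S, y i = c then ∏ j, (if x j = y j then 1 - ε else ε) else 0)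
      = (1 + (1 - 2 * ε) ^ S.card * sgn c * chi S x) / 2 := by
  have h1 : ∀ y : Fin n → ℤˣ,
      (if ∏ i ∈ S, y i = c then ∏ j, (if x j = y j then 1 - ε else ε) else 0) =
      ((∏ j, (if x j = y j then 1 - ε else ε)) +
        sgn c * ((∏ j, (if x j = y j then 1 - ε else ε)) * chi S y)) / 2 := by
    intro y
    have := ind_eq (∏ i ∈ S, y i) c
    by_cases hy : ∏ i ∈ S, y i = c
    · rw [if_pos hy] at this ⊢
      unfold chi
      have h3 : sgn c * sgn (∏ i ∈ S, y i) = 1 := by linarith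
      calc (∏ j, (if x j = y j then 1 - ε else ε))
          = ((∏ j, (if x j = y j then 1 - ε else ε)) +
            (∏ j, (if x j = y j then 1 - ε else ε)) * (sgn c * sgn (∏ i ∈ S, y i))) / 2 := by
              rw [h3]; ring
        _ = _ := by ring
    · rw [if_neg hy] at this ⊢
      unfold chi
      have h3 : sgn c * sgn (∏ i ∈ S, y i) = -1 := by linarith
      calc (0 : ℝ)
          = ((∏ j, (if x j = y j then 1 - ε else ε)) +
            (∏ j, (if x j = y j then 1 - ε else ε)) * (sgn c * sgn (∏ i ∈ S, y i))) / 2 := by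
              rw [h3]; ring
        _ = _ := by ring
  rw [Finset.sum_congr rfl (fun y _ => h1 y), ← Finset.sum_div, Finset.sum_add_distrib,
    ← Finset.mul_sum, sum_prod_wt, sum_prod_wt_chi]
  ring

lemma joint_marg (ε : ℝ) (S : Finset (Fin n)) (c : ℤˣ) (Q : (Fin n → ℤˣ) → Prop)
    [DecidablePred Q] :
    (∑ ω with Q ω.1 ∧ ∏ i ∈ S, ω.2 i = c, bscLaw n ε ω) =
      (1 / 2) ^ n * ∑ x, if Q x then (1 + (1 - 2 * ε) ^ S.card * sgn c * chi S x) / 2 else 0 := by
  rw [Finset.sum_filter, Fintype.sum_prod_type, Finset.mul_sum]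
  apply Finset.sum_congr rfl
  intro x _
  by_cases hQ : Q x
  · simp only [hQ, true_and, if_true]
    rw [← sum_prod_wt_par ε x S c, Finset.mul_sum]
    apply Finset.sum_congr rfl
    intro y _
    by_cases hy : ∏ i ∈ S, y i = c
    · simp [hy, bscLaw]
    · simp [hy]
  · simp [hQ]

lemma joint_marg1 (ε : ℝ) (Q : (Fin n → ℤˣ) → Prop) [DecidablePred Q] :
    (∑ ω with Q ω.1, bscLaw n ε ω) = (1 / 2) ^ n * ∑ x, if Q x then (1 : ℝ) else 0 := by
  rw [Finset.sum_filter, Fintype.sum_prod_type, Finset.mul_sum]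
  apply Finset.sum_congr rfl
  intro x _
  by_cases hQ : Q x
  · simp only [hQ, if_true]
    have h : ∑ y : Fin n → ℤˣ, bscLaw n ε (x, y) =
        (1 / 2) ^ n * ∑ y : Fin n → ℤˣ, ∏ j, (if x j = y j then 1 - ε else ε) := by
      rw [Finset.mul_sum]; rfl
    rw [h, sum_prod_wt ε x]
  · simp [hQ]

lemma joint_marg2 (ε : ℝ) (S : Finset (Fin n)) (c : ℤˣ) :
    (∑ ω with ∏ i ∈ S, ω.2 i = c, bscLaw n ε ω) =
      (1 / 2) ^ n * ∑ x : Fin n → ℤˣ, (1 + (1 - 2 * ε) ^ S.card * sgn c * chi S x) / 2 := by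
  have h := joint_marg ε S c (fun _ => True)
  simpa using h

lemma term_le {P A ρ : ℝ} (hP : 0 ≤ P) (hA : |A| ≤ P) (hρ0 : 0 ≤ ρ) (hρ1 : ρ ≤ 1) :
    ∑ c : ℤˣ, ((P + ρ * sgn c * A) / 2) *
      Real.logb 2 (((P + ρ * sgn c * A) / 2) / (P * (1 / 2))) ≤ A ^ 2 / P * (psi ρ / Real.log 2) := by
  have hlog : 0 < Real.log 2 := Real.log_pos (by norm_num)
  rcases hP.eq_or_lt with h | h
  · have hA0 : A = 0 := by
      rw [← h] at hA
      exact abs_eq_zero.mp (le_antisymm hA (abs_nonneg A))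
    subst hA0
    rw [← h]
    simp
  · set t : ℝ := A / P * ρ with ht
    have hAP : |A / P| ≤ 1 := by
      rw [abs_div, abs_of_pos h]
      exact (div_le_one h).mpr hA
    have hpsi := psi_scale hAP hρ0 hρ1
    have e : ∀ c : ℤˣ, ((P + ρ * sgn c * A) / 2) *
        Real.logb 2 (((P + ρ * sgn c * A) / 2) / (P * (1 / 2))) =
        P / Real.log 2 * ((1 + sgn c * t) * Real.log (1 + sgn c * t) / 2) := by
      intro c
      have h1 : ((P + ρ * sgn c * A) / 2) / (P * (1 / 2)) = 1 + sgn c * t := by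
        rw [ht]; field_simp
      have h2 : (P + ρ * sgn c * A) / 2 = P * (1 + sgn c * t) / 2 := by
        rw [ht]; field_simp
      rw [h1, h2, Real.logb]
      field_simp
    rw [sum_units, e 1, e (-1)]
    have hs : P / Real.log 2 * ((1 + sgn 1 * t) * Real.log (1 + sgn 1 * t) / 2) +
        P / Real.log 2 * ((1 + sgn (-1) * t) * Real.log (1 + sgn (-1) * t) / 2) =
        P / Real.log 2 * psi t := by
      rw [sgn_one, sgn_neg_one]
      simp only [psi]
      ring_nf
    rw [hs]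
    have hc : 0 ≤ P / Real.log 2 := by positivity
    calc P / Real.log 2 * psi t ≤ P / Real.log 2 * ((A / P) ^ 2 * psi ρ) :=
          mul_le_mul_of_nonneg_left hpsi hc
      _ = A ^ 2 / P * (psi ρ / Real.log 2) := by field_simp

lemma psi_eq_h2 {ε : ℝ} (h0 : 0 ≤ ε) (h1 : ε ≤ 1 / 2) :
    psi (1 - 2 * ε) / Real.log 2 = 1 - h2 ε := by
  have hlog : 0 < Real.log 2 := Real.log_pos (by norm_num)
  unfold psi h2 Real.logb
  have e1 : 1 + (1 - 2 * ε) = 2 * (1 - ε) := by ring
  have e2 : 1 - (1 - 2 * ε) = 2 * ε := by ring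
  rw [e1, e2, Real.log_mul (by norm_num) (by linarith)]
  rcases h0.eq_or_lt with h | h
  · rw [← h]
    simp only [mul_zero, sub_zero, Real.log_one, add_zero, zero_mul, mul_one, zero_div, neg_zero]
    field_simp
  · rw [Real.log_mul (by norm_num) h.ne']
    field_simp
    ring

lemma psi_pow_le {ρ : ℝ} (hρ0 : 0 ≤ ρ) (hρ1 : ρ ≤ 1) {k : ℕ} (hk : 1 ≤ k) :
    psi (ρ ^ k) ≤ psi ρ := by
  obtain ⟨m, rfl⟩ : ∃ m, k = m + 1 := ⟨k - 1, by omega⟩
  rw [pow_succ]
  have h0 : 0 ≤ ρ ^ m := pow_nonneg hρ0 m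
  have h1 : ρ ^ m ≤ 1 := pow_le_one₀ hρ0 hρ1
  have h := psi_scale_nonneg h0 h1 hρ0 hρ1
  have hp := psi_nonneg (t := ρ) (by linarith) hρ1
  have h2 : (ρ ^ m) ^ 2 ≤ 1 := pow_le_one₀ h0 h1
  nlinarith

theorem result (n : ℕ) (f : (Fin n → ℤˣ) → ℤˣ) (ε : ℝ) (h0 : 0 ≤ ε) (h1 : ε ≤ 1 / 2) :
    ∑ S : Finset (Fin n) with S.Nonempty,
      mutualInfo (bscLaw n ε) (fun ω => f ω.1) (fun ω => ∏ i ∈ S, ω.2 i) ≤ 1 - h2 ε := by
  set N : ℝ := (1 / 2 : ℝ) ^ n with hN
  have hN0 : 0 ≤ N := by positivity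
  set ρ : ℝ := 1 - 2 * ε with hρ
  have hρ0 : 0 ≤ ρ := by rw [hρ]; linarith
  have hρ1 : ρ ≤ 1 := by rw [hρ]; linarith
  set ind : ℤˣ → (Fin n → ℤˣ) → ℝ := fun a x => if f x = a then 1 else 0 with hind
  set P : ℤˣ → ℝ := fun a => N * ∑ x, ind a x with hPdef
  set A : ℤˣ → Finset (Fin n) → ℝ := fun a S => N * ∑ x, ind a x * chi S x with hAdef
  have hind0 : ∀ a x, 0 ≤ ind a x := by
    intro a x; simp only [hind]; split_ifs <;> norm_num
  have hindsum : ∀ x, ind 1 x + ind (-1) x = 1 := by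
    intro x
    simp only [hind]
    rcases Int.units_eq_one_or (f x) with hx | hx <;> simp [hx]
  have hP0 : ∀ a, 0 ≤ P a := fun a =>
    mul_nonneg hN0 (Finset.sum_nonneg (fun x _ => hind0 a x))
  have hAP : ∀ a S, |A a S| ≤ P a := by
    intro a S
    simp only [hAdef, hPdef]
    rw [abs_mul, abs_of_nonneg hN0]
    apply mul_le_mul_of_nonneg_left _ hN0
    refine (Finset.abs_sum_le_sum_abs _ _).trans (le_of_eq ?_)
    apply Finset.sum_congr rfl
    intro x _
    rw [abs_mul, chi_abs, mul_one, abs_of_nonneg (hind0 a x)]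
  have hPsum : P 1 + P (-1) = 1 := by
    simp only [hPdef]
    rw [← mul_add, ← Finset.sum_add_distrib, ← sum_one (n := n)]
    congr 1
    exact Finset.sum_congr rfl (fun x _ => hindsum x)
  have hAsum : ∀ S : Finset (Fin n), S.Nonempty → A (-1) S = - A 1 S := by
    intro S hS
    have : A 1 S + A (-1) S = 0 := by
      simp only [hAdef]
      rw [← mul_add, ← Finset.sum_add_distrib]
      have : ∀ x : Fin n → ℤˣ, ind 1 x * chi S x + ind (-1) x * chi S x = chi S x := by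
        intro x
        rw [← add_mul, hindsum, one_mul]
      rw [Finset.sum_congr rfl (fun x _ => this x), sum_chi hS, mul_zero]
    linarith
  have hPac : ∀ (a c : ℤˣ) (S : Finset (Fin n)),
      (∑ ω with f ω.1 = a ∧ ∏ i ∈ S, ω.2 i = c, bscLaw n ε ω) =
        (P a + ρ ^ S.card * sgn c * A a S) / 2 := by
    intro a c S
    rw [joint_marg ε S c (fun x => f x = a)]
    simp only [hPdef, hAdef]
    have : ∀ x : Fin n → ℤˣ, (if f x = a then (1 + (1 - 2 * ε) ^ S.card * sgn c * chi S x) / 2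
        else 0) = (ind a x + ρ ^ S.card * sgn c * (ind a x * chi S x)) / 2 := by
      intro x
      simp only [hind]
      split_ifs <;> ring
    rw [Finset.sum_congr rfl (fun x _ => this x), ← Finset.sum_div, Finset.sum_add_distrib,
      ← Finset.mul_sum]
    ring
  have hPa : ∀ a : ℤˣ, (∑ ω with f ω.1 = a, bscLaw n ε ω) = P a := by
    intro a
    rw [joint_marg1 ε (fun x => f x = a)]
  have hPc : ∀ (c : ℤˣ) (S : Finset (Fin n)), S.Nonempty →
      (∑ ω with ∏ i ∈ S, ω.2 i = c, bscLaw n ε ω) = 1 / 2 := by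
    intro c S hS
    rw [joint_marg2]
    rw [← Finset.sum_div, Finset.sum_add_distrib,
      ← Finset.mul_sum, sum_chi hS, mul_zero, add_zero, mul_div_assoc', sum_one]
  set K : ℝ := psi ρ / Real.log 2 with hK
  have hlog : 0 < Real.log 2 := Real.log_pos (by norm_num)
  have hK0 : 0 ≤ K := div_nonneg (psi_nonneg (by linarith) hρ1) hlog.le
  have hI : ∀ S : Finset (Fin n), S.Nonempty →
      mutualInfo (bscLaw n ε) (fun ω => f ω.1) (fun ω => ∏ i ∈ S, ω.2 i) ≤
      (A 1 S ^ 2 / P 1 + A 1 S ^ 2 / P (-1)) * K := by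
    intro S hS
    unfold mutualInfo
    simp only [hPac, hPa, hPc _ S hS]
    rw [sum_units]
    have hr0 : 0 ≤ ρ ^ S.card := pow_nonneg hρ0 _
    have hr1 : ρ ^ S.card ≤ 1 := pow_le_one₀ hρ0 hρ1
    have ht := term_le (hP0 1) (hAP 1 S) hr0 hr1
    have hf := term_le (hP0 (-1)) (hAP (-1) S) hr0 hr1
    rw [hAsum S hS, neg_sq] at hf
    rw [hAsum S hS]
    have hKS : psi (ρ ^ S.card) / Real.log 2 ≤ K :=
      div_le_div_of_nonneg_right (psi_pow_le hρ0 hρ1 (Finset.card_pos.mpr hS)) hlog.le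
    have c1 : 0 ≤ A 1 S ^ 2 / P 1 := div_nonneg (sq_nonneg _) (hP0 1)
    have c2 : 0 ≤ A 1 S ^ 2 / P (-1) := div_nonneg (sq_nonneg _) (hP0 (-1))
    calc _ ≤ A 1 S ^ 2 / P 1 * (psi (ρ ^ S.card) / Real.log 2) +
          A 1 S ^ 2 / P (-1) * (psi (ρ ^ S.card) / Real.log 2) := add_le_add ht hf
      _ ≤ A 1 S ^ 2 / P 1 * K + A 1 S ^ 2 / P (-1) * K :=
          add_le_add (mul_le_mul_of_nonneg_left hKS c1) (mul_le_mul_of_nonneg_left hKS c2)
      _ = _ := by ring
  have hbes : ∑ S : Finset (Fin n) with S.Nonempty, A 1 S ^ 2 ≤ P 1 * P (-1) := by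
    have hb := bessel_gen N hN0 (fun S : Finset (Fin n) => chi S) sum_chi_chi (ind 1)
    have hsq : ∀ x, ind 1 x ^ 2 = ind 1 x := by
      intro x; simp only [hind]; split_ifs <;> norm_num
    rw [Finset.sum_congr rfl (fun x _ => hsq x)] at hb
    have hsplit : ∑ S : Finset (Fin n), A 1 S ^ 2 =
        A 1 ∅ ^ 2 + ∑ S : Finset (Fin n) with S.Nonempty, A 1 S ^ 2 := by
      rw [← Finset.add_sum_erase univ (fun S => A 1 S ^ 2) (mem_univ ∅)]
      congr 1
      apply Finset.sum_congr _ (fun _ _ => rfl)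
      ext S
      simp [Finset.nonempty_iff_ne_empty]
    have hA0 : A 1 ∅ = P 1 := by
      simp only [hAdef, hPdef]
      simp [chi, sgn]
    have hb' : ∑ S : Finset (Fin n), A 1 S ^ 2 ≤ P 1 := hb
    rw [hsplit, hA0] at hb'
    have : P (-1) = 1 - P 1 := by linarith
    rw [this]
    nlinarith
  have hS0 : 0 ≤ ∑ S : Finset (Fin n) with S.Nonempty, A 1 S ^ 2 :=
    Finset.sum_nonneg (fun i _ => sq_nonneg _)
  rw [← psi_eq_h2 h0 h1]
  calc ∑ S : Finset (Fin n) with S.Nonempty,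
        mutualInfo (bscLaw n ε) (fun ω => f ω.1) (fun ω => ∏ i ∈ S, ω.2 i)
      ≤ ∑ S : Finset (Fin n) with S.Nonempty, (A 1 S ^ 2 / P 1 + A 1 S ^ 2 / P (-1)) * K :=
        Finset.sum_le_sum (fun S hS => hI S (Finset.mem_filter.mp hS).2)
    _ = ((∑ S : Finset (Fin n) with S.Nonempty, A 1 S ^ 2) / P 1 +
          (∑ S : Finset (Fin n) with S.Nonempty, A 1 S ^ 2) / P (-1)) * K := by
        rw [← Finset.sum_mul, Finset.sum_add_distrib, Finset.sum_div, Finset.sum_div]
    _ ≤ 1 * K := by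
        apply mul_le_mul_of_nonneg_right _ hK0
        set T := ∑ S : Finset (Fin n) with S.Nonempty, A 1 S ^ 2
        rcases (hP0 1).eq_or_lt with hp | hp
        · have : T = 0 := by
            rw [← hp, zero_mul] at hbes; linarith
          rw [this]; simp
        · rcases (hP0 (-1)).eq_or_lt with hq | hq
          · have : T = 0 := by
              rw [← hq, mul_zero] at hbes; linarith
            rw [this]; simp
          · rw [div_add_div _ _ hp.ne' hq.ne', div_le_one (by positivity)]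
            nlinarith
    _ = psi (1 - 2 * ε) / Real.log 2 := by rw [one_mul]

end Vale.Agent.Results.P322.AllParities
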