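import Mathlib

namespace Vale.Agent.Results.P322.CoordSumAll

open Finset

/-- Mutual information, in bits, of the finite-valued random variables `U` and `V` on the finite
probability space `Ω` with point masses `μ`. -/
noncomputable def mutualInfo {Ω A B : Type} [Fintype Ω] [Fintype A] [Fintype B]
    [DecidableEq A] [DecidableEq B] (μ : Ω → ℝ) (U : Ω → A) (V : Ω → B) : ℝ :=
  ∑ a, ∑ b, (∑ ω with U ω = a ∧ V ω = b, μ ω) *
    Real.logb 2 ((∑ ω with U ω = a ∧ V ω = b, μ ω) /
      ((∑ ω with U ω = a, μ ω) * (∑ ω with V ω = b, μ ω)))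

/-- The joint law of `(X, Y)`: `X` uniform on the cube, `Y` obtained from `X` by flipping every
coordinate independently with probability `ε`. -/
noncomputable def bscLaw (n : ℕ) (ε : ℝ) (ω : (Fin n → Bool) × (Fin n → Bool)) : ℝ :=
  (1 / 2) ^ n * ∏ i, (if ω.1 i = ω.2 i then 1 - ε else ε)

/-- The binary entropy function in bits. -/
noncomputable def h2 (p : ℝ) : ℝ := -(p * Real.logb 2 p) - (1 - p) * Real.logb 2 (1 - p)

/-- psi t = ((1+t) log (1+t) + (1-t) log (1-t)) / 2 -/
noncomputable def psi (t : ℝ) : ℝ := ((1 + t) * Real.log (1 + t) + (1 - t) * Real.log (1 - t)) / 2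

lemma psi_neg (t : ℝ) : psi (-t) = psi t := by
  unfold psi
  have h1 : 1 + -t = 1 - t := by ring
  have h2 : 1 - -t = 1 + t := by ring
  rw [h1, h2]; ring

lemma psi_zero : psi 0 = 0 := by simp [psi]

lemma psi_continuous : Continuous psi := by
  unfold psi
  have h := Real.continuous_mul_log
  have h1 : Continuous (fun t : ℝ => (1 + t) * Real.log (1 + t)) :=
    h.comp (continuous_const.add continuous_id)
  have h2 : Continuous (fun t : ℝ => (1 - t) * Real.log (1 - t)) :=
    h.comp (continuous_const.sub continuous_id)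
  exact (h1.add h2).div_const 2

lemma psi_comp_hasDerivAt {a t : ℝ} (h1 : -1 < a * t) (h2 : a * t < 1) :
    HasDerivAt (fun s => psi (a * s))
      (a * ((Real.log (1 + a * t) - Real.log (1 - a * t)) / 2)) t := by
  unfold psi
  have hu : HasDerivAt (fun s : ℝ => 1 + a * s) a t := by
    simpa using ((hasDerivAt_id t).const_mul a).const_add 1
  have hv : HasDerivAt (fun s : ℝ => 1 - a * s) (-a) t := by
    simpa using ((hasDerivAt_id t).const_mul a).const_sub 1
  have hu0 : 1 + a * t ≠ 0 := by linarith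
  have hv0 : 1 - a * t ≠ 0 := by linarith
  have ha := hu.mul (hu.log hu0)
  have hb := hv.mul (hv.log hv0)
  have key : HasDerivAt (fun s : ℝ => ((1 + a * s) * Real.log (1 + a * s) +
      (1 - a * s) * Real.log (1 - a * s)) / 2) _ t := (ha.add hb).div_const 2
  refine key.congr_deriv ?_
  field_simp
  ring

lemma L_le {a t : ℝ} (ha0 : 0 ≤ a) (ha1 : a ≤ 1) (ht0 : 0 ≤ t) (ht1 : t < 1) :
    Real.log (1 + a * t) - Real.log (1 - a * t) ≤ a * (Real.log (1 + t) - Real.log (1 - t)) := by
  have hat0 : 0 ≤ a * t := mul_nonneg ha0 ht0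
  have hat : a * t < 1 := lt_of_le_of_lt (mul_le_of_le_one_left ht0 ha1) ht1
  have h1 := Real.hasSum_log_sub_log_of_abs_lt_one (x := a * t) (by rw [abs_of_nonneg hat0]; exact hat)
  have h2 := (Real.hasSum_log_sub_log_of_abs_lt_one (x := t) (by rw [abs_of_nonneg ht0]; exact ht1)).mul_left a
  refine hasSum_le ?_ h1 h2
  intro k
  have hk : (a * t) ^ (2 * k + 1) ≤ a * t ^ (2 * k + 1) := by
    rw [mul_pow, pow_succ a]
    have : a ^ (2 * k) ≤ 1 := pow_le_one₀ ha0 ha1
    have ht : 0 ≤ t ^ (2 * k + 1) := pow_nonneg ht0 _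
    nlinarith [mul_nonneg ha0 ht, mul_nonneg (mul_nonneg ha0 ht) (sub_nonneg.mpr this)]
  have hc : (0 : ℝ) ≤ 2 * (1 / (2 * (k : ℝ) + 1)) := by positivity
  calc 2 * (1 / (2 * (k : ℝ) + 1)) * (a * t) ^ (2 * k + 1)
      ≤ 2 * (1 / (2 * (k : ℝ) + 1)) * (a * t ^ (2 * k + 1)) := mul_le_mul_of_nonneg_left hk hc
    _ = a * (2 * (1 / (2 * (k : ℝ) + 1)) * t ^ (2 * k + 1)) := by ring

lemma psi_scale_nonneg {a t : ℝ} (ha0 : 0 ≤ a) (ha1 : a ≤ 1) (ht0 : 0 ≤ t) (ht1 : t ≤ 1) :
    psi (a * t) ≤ a ^ 2 * psi t := by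
  have hder : ∀ s ∈ Set.Ioo (0 : ℝ) 1, HasDerivAt (fun s : ℝ => a ^ 2 * psi (1 * s) - psi (a * s))
      (a ^ 2 * (1 * ((Real.log (1 + 1 * s) - Real.log (1 - 1 * s)) / 2)) -
        a * ((Real.log (1 + a * s) - Real.log (1 - a * s)) / 2)) s := by
    intro s hs
    have has : a * s < 1 := lt_of_le_of_lt (mul_le_of_le_one_left hs.1.le ha1) hs.2
    have has0 : 0 ≤ a * s := mul_nonneg ha0 hs.1.le
    have d1 := (psi_comp_hasDerivAt (a := 1) (t := s) (by linarith [hs.1]) (by linarith [hs.2])).const_mul (a ^ 2)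
    have d2 := psi_comp_hasDerivAt (a := a) (t := s) (by linarith) has
    exact d1.sub d2
  have hmono : MonotoneOn (fun s : ℝ => a ^ 2 * psi (1 * s) - psi (a * s)) (Set.Icc 0 1) := by
    apply monotoneOn_of_deriv_nonneg (convex_Icc 0 1)
    · apply Continuous.continuousOn
      exact (continuous_const.mul (psi_continuous.comp (continuous_const.mul continuous_id))).sub
        (psi_continuous.comp (continuous_const.mul continuous_id))
    · intro s hs
      rw [interior_Icc] at hs
      exact (hder s hs).differentiableAt.differentiableWithinAt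
    · intro s hs
      rw [interior_Icc] at hs
      rw [(hder s hs).deriv]
      have hL := L_le ha0 ha1 hs.1.le hs.2
      simp only [one_mul]
      nlinarith [mul_nonneg ha0 (sub_nonneg.mpr hL)]
  have h := hmono (Set.left_mem_Icc.mpr zero_le_one) ⟨ht0, ht1⟩ ht0
  simp only [mul_zero, psi_zero, sub_zero, one_mul] at h
  linarith

lemma psi_scale {a t : ℝ} (ha : |a| ≤ 1) (ht0 : 0 ≤ t) (ht1 : t ≤ 1) :
    psi (a * t) ≤ a ^ 2 * psi t := by
  rcases le_total 0 a with h | h
  · exact psi_scale_nonneg h (by rwa [abs_of_nonneg h] at ha) ht0 ht1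
  · have h' := psi_scale_nonneg (a := -a) (by linarith) (by rwa [abs_of_nonpos h] at ha) ht0 ht1
    rw [neg_mul, psi_neg] at h'
    simpa using h'

lemma mul_log_ge {x : ℝ} (hx : 0 ≤ x) : x - 1 ≤ x * Real.log x := by
  rcases hx.eq_or_lt with h | h
  · rw [← h]; simp
  · have := Real.one_sub_inv_le_log_of_pos h
    have h2 : x * (1 - x⁻¹) ≤ x * Real.log x := mul_le_mul_of_nonneg_left this h.le
    have h3 : x * (1 - x⁻¹) = x - 1 := by field_simp
    linarith

lemma psi_nonneg {t : ℝ} (ht0 : -1 ≤ t) (ht1 : t ≤ 1) : 0 ≤ psi t := by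
  unfold psi
  have h1 := mul_log_ge (x := 1 + t) (by linarith)
  have h2 := mul_log_ge (x := 1 - t) (by linarith)
  linarith

variable {n : ℕ}

def sg (b : Bool) : ℝ := if b then 1 else -1

lemma sg_not (b : Bool) : sg (!b) = - sg b := by cases b <;> simp [sg]
lemma sg_sq (b : Bool) : sg b * sg b = 1 := by cases b <;> simp [sg]
lemma sg_abs (b : Bool) : |sg b| = 1 := by cases b <;> simp [sg]

def flipc (i : Fin n) (x : Fin n → Bool) : Fin n → Bool := Function.update x i (!x i)

lemma flipc_flipc (i : Fin n) (x : Fin n → Bool) : flipc i (flipc i x) = x := by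
  unfold flipc
  ext j
  by_cases h : j = i
  · subst h; simp
  · simp [Function.update_of_ne h]

lemma sum_flipc (i : Fin n) (F : (Fin n → Bool) → ℝ) : ∑ x, F (flipc i x) = ∑ x, F x :=
  Equiv.sum_comp (Function.Involutive.toPerm (flipc i) (flipc_flipc i)) F

lemma sum_sg_mul (i : Fin n) (G : (Fin n → Bool) → ℝ) (hG : ∀ x, G (flipc i x) = G x) :
    ∑ x, sg (x i) * G x = 0 := by
  have h := sum_flipc i (fun x => sg (x i) * G x)
  have h2 : ∀ x : Fin n → Bool, sg (flipc i x i) * G (flipc i x) = - (sg (x i) * G x) := by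
    intro x
    rw [hG]
    simp [flipc, sg_not]
  rw [Finset.sum_congr rfl (fun x _ => h2 x), Finset.sum_neg_distrib] at h
  linarith

lemma sum_sg (i : Fin n) : ∑ x : Fin n → Bool, sg (x i) = 0 := by
  simpa using sum_sg_mul i (fun _ => 1) (fun _ => rfl)

lemma sum_one : (1 / 2 : ℝ) ^ n * ∑ _x : Fin n → Bool, (1 : ℝ) = 1 := by
  simp

lemma sum_sg_sg (i j : Fin n) :
    (1 / 2 : ℝ) ^ n * ∑ x : Fin n → Bool, sg (x i) * sg (x j) = if i = j then 1 else 0 := by
  by_cases h : i = j
  · subst h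
    simp only [sg_sq, if_true]
    exact sum_one
  · rw [if_neg h, sum_sg_mul i (fun x => sg (x j)), mul_zero]
    intro x
    simp [flipc, Function.update_of_ne (Ne.symm h)]

lemma bessel (g : (Fin n → Bool) → ℝ) :
    ∑ i, ((1 / 2 : ℝ) ^ n * ∑ x, g x * sg (x i)) ^ 2 ≤
      (1 / 2 : ℝ) ^ n * ∑ x, g x ^ 2 - ((1 / 2 : ℝ) ^ n * ∑ x, g x) ^ 2 := by
  set N : ℝ := (1 / 2 : ℝ) ^ n with hN
  set p : ℝ := N * ∑ x, g x with hp
  set a : Fin n → ℝ := fun i => N * ∑ x, g x * sg (x i) with ha
  have hN0 : 0 ≤ N := by positivity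
  have hpos : 0 ≤ N * ∑ x, (g x - p - ∑ i, a i * sg (x i)) ^ 2 :=
    mul_nonneg hN0 (Finset.sum_nonneg (fun x _ => sq_nonneg _))
  have e1 : ∀ x : Fin n → Bool, (g x - p - ∑ i, a i * sg (x i)) ^ 2 =
      g x ^ 2 + p ^ 2 * 1 - 2 * p * g x - 2 * (∑ i, a i * (g x * sg (x i)))
        + 2 * p * (∑ i, a i * sg (x i)) + ∑ i, ∑ j, a i * a j * (sg (x i) * sg (x j)) := by
    intro x
    have h1 : (∑ i, a i * sg (x i)) ^ 2 = ∑ i, ∑ j, a i * a j * (sg (x i) * sg (x j)) := by
      rw [sq, Finset.sum_mul_sum]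
      apply Finset.sum_congr rfl; intro i _
      apply Finset.sum_congr rfl; intro j _
      ring
    have h2 : ∑ i, a i * (g x * sg (x i)) = g x * ∑ i, a i * sg (x i) := by
      rw [Finset.mul_sum]
      apply Finset.sum_congr rfl; intro i _; ring
    rw [← h1, h2]; ring
  rw [Finset.sum_congr rfl (fun x _ => e1 x)] at hpos
  simp only [Finset.sum_add_distrib, Finset.sum_sub_distrib, ← Finset.mul_sum] at hpos
  have t1 : N * ∑ x : Fin n → Bool, ∑ i, a i * (g x * sg (x i)) = ∑ i, a i ^ 2 := by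
    rw [Finset.sum_comm, Finset.mul_sum]
    apply Finset.sum_congr rfl; intro i _
    rw [← Finset.mul_sum, sq]
    simp only [ha]; ring
  have t2 : N * ∑ x : Fin n → Bool, ∑ i, a i * sg (x i) = 0 := by
    rw [Finset.sum_comm]
    simp only [← Finset.mul_sum, sum_sg, mul_zero, Finset.sum_const_zero]
  have t3 : N * ∑ x : Fin n → Bool, ∑ i, ∑ j, a i * a j * (sg (x i) * sg (x j)) = ∑ i, a i ^ 2 := by
    rw [Finset.sum_comm, Finset.mul_sum]
    apply Finset.sum_congr rfl; intro i _
    rw [Finset.sum_comm, Finset.mul_sum]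
    have : ∀ j, N * ∑ x : Fin n → Bool, a i * a j * (sg (x i) * sg (x j)) =
        a i * a j * (if i = j then 1 else 0) := by
      intro j
      rw [← sum_sg_sg i j, ← Finset.mul_sum]; ring
    rw [Finset.sum_congr rfl (fun j _ => this j)]
    simp [sq]
  have t4 : N * ∑ _x : Fin n → Bool, (1 : ℝ) = 1 := sum_one
  have e2 : N * (∑ x, g x ^ 2 + p ^ 2 * ∑ _i : Fin n → Bool, (1 : ℝ) - 2 * p * ∑ i, g i -
      2 * ∑ i : Fin n → Bool, ∑ i_1, a i_1 * (g i * sg (i i_1)) +
          2 * p * ∑ i : Fin n → Bool, ∑ i_1, a i_1 * sg (i i_1) +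
        ∑ x : Fin n → Bool, ∑ i, ∑ j, a i * a j * (sg (x i) * sg (x j))) =
      N * ∑ x, g x ^ 2 + p ^ 2 * (N * ∑ _i : Fin n → Bool, (1 : ℝ)) - 2 * p * (N * ∑ i, g i) -
      2 * (N * ∑ i : Fin n → Bool, ∑ i_1, a i_1 * (g i * sg (i i_1))) +
          2 * p * (N * ∑ i : Fin n → Bool, ∑ i_1, a i_1 * sg (i i_1)) +
        N * ∑ x : Fin n → Bool, ∑ i, ∑ j, a i * a j * (sg (x i) * sg (x j)) := by ring
  rw [e2, t1, t2, t3, t4, ← hp] at hpos
  have goal : ∑ i, a i ^ 2 ≤ N * ∑ x, g x ^ 2 - p ^ 2 := by linarith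
  exact goal

lemma wt_eq (ε : ℝ) (s c : Bool) :
    (if s = c then 1 - ε else ε) = (1 + (1 - 2 * ε) * sg c * sg s) / 2 := by
  cases s <;> cases c <;> simp [sg] <;> ring

lemma sum_prod_wt (ε : ℝ) (x : Fin n → Bool) :
    ∑ y : Fin n → Bool, ∏ j, (if x j = y j then 1 - ε else ε) = 1 := by
  have h := Finset.prod_univ_sum (fun _ : Fin n => (univ : Finset Bool))
    (fun j b => if x j = b then 1 - ε else ε)
  rw [Fintype.piFinset_univ] at h
  rw [← h]
  apply Finset.prod_eq_one
  intro j _
  rw [Fintype.sum_bool]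
  cases x j <;> simp

lemma sum_prod_wt_coord (ε : ℝ) (x : Fin n → Bool) (i : Fin n) (c : Bool) :
    ∑ y : Fin n → Bool, (if y i = c then ∏ j, (if x j = y j then 1 - ε else ε) else 0)
      = if x i = c then 1 - ε else ε := by
  have h := Finset.prod_univ_sum (fun _ : Fin n => (univ : Finset Bool))
    (fun j b => if j = i then (if b = c then (if x j = b then 1 - ε else ε) else 0)
      else (if x j = b then 1 - ε else ε))
  rw [Fintype.piFinset_univ] at h
  have h1 : ∀ y : Fin n → Bool,
      (∏ j, (if j = i then (if y j = c then (if x j = y j then 1 - ε else ε) else 0)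
      else (if x j = y j then 1 - ε else ε))) =
      (if y i = c then ∏ j, (if x j = y j then 1 - ε else ε) else 0) := by
    intro y
    by_cases hy : y i = c
    · rw [if_pos hy]
      apply Finset.prod_congr rfl
      intro j _
      by_cases hj : j = i
      · subst hj; simp [hy]
      · simp [hj]
    · rw [if_neg hy]
      apply Finset.prod_eq_zero (mem_univ i)
      simp [hy]
  rw [← Finset.sum_congr rfl (fun y _ => h1 y), ← h]
  have h2 : ∀ j : Fin n, (∑ b : Bool, (if j = i then (if b = c then (if x j = b then 1 - ε else ε) else 0)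
      else (if x j = b then 1 - ε else ε))) = if j = i then (if x i = c then 1 - ε else ε) else 1 := by
    intro j
    by_cases hj : j = i
    · subst hj
      simp only [if_true]
      rw [Fintype.sum_bool]
      cases c <;> simp
    · simp only [hj, if_false]
      rw [Fintype.sum_bool]
      cases x j <;> simp
  rw [Finset.prod_congr rfl (fun j _ => h2 j)]
  rw [Finset.prod_ite_eq']
  simp

lemma joint_marg (ε : ℝ) (i : Fin n) (c : Bool) (Q : (Fin n → Bool) → Prop) [DecidablePred Q] :
    (∑ ω with Q ω.1 ∧ ω.2 i = c, bscLaw n ε ω) =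
      (1 / 2) ^ n * ∑ x, if Q x then (if x i = c then 1 - ε else ε) else 0 := by
  rw [Finset.sum_filter, Fintype.sum_prod_type, Finset.mul_sum]
  apply Finset.sum_congr rfl
  intro x _
  by_cases hQ : Q x
  · simp only [hQ, true_and, if_true]
    rw [← sum_prod_wt_coord ε x i c, Finset.mul_sum]
    apply Finset.sum_congr rfl
    intro y _
    by_cases hy : y i = c
    · simp [hy, bscLaw]
    · simp [hy]
  · simp [hQ]

lemma joint_marg1 (ε : ℝ) (Q : (Fin n → Bool) → Prop) [DecidablePred Q] :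
    (∑ ω with Q ω.1, bscLaw n ε ω) = (1 / 2) ^ n * ∑ x, if Q x then (1 : ℝ) else 0 := by
  rw [Finset.sum_filter, Fintype.sum_prod_type, Finset.mul_sum]
  apply Finset.sum_congr rfl
  intro x _
  by_cases hQ : Q x
  · simp only [hQ, if_true]
    have h : ∑ y : Fin n → Bool, bscLaw n ε (x, y) =
        (1 / 2) ^ n * ∑ y : Fin n → Bool, ∏ j, (if x j = y j then 1 - ε else ε) := by
      rw [Finset.mul_sum]; rfl
    rw [h, sum_prod_wt ε x]
  · simp [hQ]

lemma joint_marg2 (ε : ℝ) (i : Fin n) (c : Bool) :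
    (∑ ω with ω.2 i = c, bscLaw n ε ω) =
      (1 / 2) ^ n * ∑ x : Fin n → Bool, (if x i = c then 1 - ε else ε) := by
  have h := joint_marg ε i c (fun _ => True)
  simpa using h

lemma term_le {P A ρ : ℝ} (hP : 0 ≤ P) (hA : |A| ≤ P) (hρ0 : 0 ≤ ρ) (hρ1 : ρ ≤ 1) :
    ∑ c : Bool, ((P + ρ * sg c * A) / 2) *
      Real.logb 2 (((P + ρ * sg c * A) / 2) / (P * (1 / 2))) ≤ A ^ 2 / P * (psi ρ / Real.log 2) := by
  have hlog : 0 < Real.log 2 := Real.log_pos (by norm_num)
  rcases hP.eq_or_lt with h | h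
  · have hA0 : A = 0 := by
      rw [← h] at hA
      exact abs_eq_zero.mp (le_antisymm hA (abs_nonneg A))
    subst hA0
    rw [← h]
    simp
  · set t : ℝ := A / P * ρ with ht
    have hAP : |A / P| ≤ 1 := by
      rw [abs_div, abs_of_pos h]
      exact (div_le_one h).mpr hA
    have hpsi := psi_scale hAP hρ0 hρ1
    have e : ∀ c : Bool, ((P + ρ * sg c * A) / 2) *
        Real.logb 2 (((P + ρ * sg c * A) / 2) / (P * (1 / 2))) =
        P / Real.log 2 * ((1 + sg c * t) * Real.log (1 + sg c * t) / 2) := by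
      intro c
      have h1 : ((P + ρ * sg c * A) / 2) / (P * (1 / 2)) = 1 + sg c * t := by
        rw [ht]; field_simp
      have h2 : (P + ρ * sg c * A) / 2 = P * (1 + sg c * t) / 2 := by
        rw [ht]; field_simp
      rw [h1, h2, Real.logb]
      field_simp
    rw [Fintype.sum_bool, e true, e false]
    have hs : P / Real.log 2 * ((1 + sg true * t) * Real.log (1 + sg true * t) / 2) +
        P / Real.log 2 * ((1 + sg false * t) * Real.log (1 + sg false * t) / 2) =
        P / Real.log 2 * psi t := by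
      simp only [sg, psi]
      simp only [if_true, Bool.false_eq_true, if_false]
      ring_nf
    rw [hs]
    have hc : 0 ≤ P / Real.log 2 := by positivity
    calc P / Real.log 2 * psi t ≤ P / Real.log 2 * ((A / P) ^ 2 * psi ρ) :=
          mul_le_mul_of_nonneg_left hpsi hc
      _ = A ^ 2 / P * (psi ρ / Real.log 2) := by field_simp

lemma psi_eq_h2 {ε : ℝ} (h0 : 0 ≤ ε) (h1 : ε ≤ 1 / 2) :
    psi (1 - 2 * ε) / Real.log 2 = 1 - h2 ε := by
  have hlog : 0 < Real.log 2 := Real.log_pos (by norm_num)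
  unfold psi h2 Real.logb
  have e1 : 1 + (1 - 2 * ε) = 2 * (1 - ε) := by ring
  have e2 : 1 - (1 - 2 * ε) = 2 * ε := by ring
  rw [e1, e2, Real.log_mul (by norm_num) (by linarith)]
  rcases h0.eq_or_lt with h | h
  · rw [← h]
    simp only [mul_zero, sub_zero, Real.log_one, add_zero, zero_mul, mul_one, zero_div, neg_zero]
    field_simp
  · rw [Real.log_mul (by norm_num) h.ne']
    field_simp
    ring

theorem result (n : ℕ) (f : (Fin n → Bool) → Bool) (ε : ℝ) (h0 : 0 ≤ ε) (h1 : ε ≤ 1 / 2) :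
    ∑ i, mutualInfo (bscLaw n ε) (fun ω => f ω.1) (fun ω => ω.2 i) ≤ 1 - h2 ε := by
  set N : ℝ := (1 / 2 : ℝ) ^ n with hN
  have hN0 : 0 ≤ N := by positivity
  set ρ : ℝ := 1 - 2 * ε with hρ
  have hρ0 : 0 ≤ ρ := by rw [hρ]; linarith
  have hρ1 : ρ ≤ 1 := by rw [hρ]; linarith
  set ind : Bool → (Fin n → Bool) → ℝ := fun a x => if f x = a then 1 else 0 with hind
  set P : Bool → ℝ := fun a => N * ∑ x, ind a x with hPdef
  set A : Bool → Fin n → ℝ := fun a i => N * ∑ x, ind a x * sg (x i) with hAdef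
  have hind0 : ∀ a x, 0 ≤ ind a x := by
    intro a x; simp only [hind]; split_ifs <;> norm_num
  have hP0 : ∀ a, 0 ≤ P a := fun a =>
    mul_nonneg hN0 (Finset.sum_nonneg (fun x _ => hind0 a x))
  have hAP : ∀ a i, |A a i| ≤ P a := by
    intro a i
    simp only [hAdef, hPdef]
    rw [abs_mul, abs_of_nonneg hN0]
    apply mul_le_mul_of_nonneg_left _ hN0
    refine (Finset.abs_sum_le_sum_abs _ _).trans (le_of_eq ?_)
    apply Finset.sum_congr rfl
    intro x _
    rw [abs_mul, sg_abs, mul_one, abs_of_nonneg (hind0 a x)]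
  have hPsum : P true + P false = 1 := by
    simp only [hPdef]
    rw [← mul_add, ← Finset.sum_add_distrib, ← sum_one (n := n)]
    congr 1
    apply Finset.sum_congr rfl
    intro x _
    simp only [hind]
    cases f x <;> simp
  have hAsum : ∀ i, A false i = - A true i := by
    intro i
    have : A true i + A false i = 0 := by
      simp only [hAdef]
      rw [← mul_add, ← Finset.sum_add_distrib]
      have : ∀ x : Fin n → Bool, ind true x * sg (x i) + ind false x * sg (x i) = sg (x i) := by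
        intro x
        simp only [hind]
        cases f x <;> simp
      rw [Finset.sum_congr rfl (fun x _ => this x), sum_sg, mul_zero]
    linarith
  have hPac : ∀ (a c : Bool) (i : Fin n),
      (∑ ω with f ω.1 = a ∧ ω.2 i = c, bscLaw n ε ω) = (P a + ρ * sg c * A a i) / 2 := by
    intro a c i
    rw [joint_marg ε i c (fun x => f x = a)]
    simp only [hPdef, hAdef]
    have : ∀ x : Fin n → Bool, (if f x = a then (if x i = c then 1 - ε else ε) else 0) =
        (ind a x + ρ * sg c * (ind a x * sg (x i))) / 2 := by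
      intro x
      rw [wt_eq]
      simp only [hind]
      split_ifs <;> ring
    rw [Finset.sum_congr rfl (fun x _ => this x), ← Finset.sum_div, Finset.sum_add_distrib,
      ← Finset.mul_sum]
    ring
  have hPa : ∀ a : Bool, (∑ ω with f ω.1 = a, bscLaw n ε ω) = P a := by
    intro a
    rw [joint_marg1 ε (fun x => f x = a)]
  have hPc : ∀ (c : Bool) (i : Fin n), (∑ ω with ω.2 i = c, bscLaw n ε ω) = 1 / 2 := by
    intro c i
    rw [joint_marg2]
    have : ∀ x : Fin n → Bool, (if x i = c then 1 - ε else ε) =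
        (1 + ρ * sg c * sg (x i)) / 2 := fun x => wt_eq ε (x i) c
    rw [Finset.sum_congr rfl (fun x _ => this x), ← Finset.sum_div, Finset.sum_add_distrib,
      ← Finset.mul_sum, sum_sg, mul_zero, add_zero, mul_div_assoc', sum_one]
  set K : ℝ := psi ρ / Real.log 2 with hK
  have hK0 : 0 ≤ K := div_nonneg (psi_nonneg (by linarith) hρ1) (Real.log_pos (by norm_num)).le
  have hI : ∀ i, mutualInfo (bscLaw n ε) (fun ω => f ω.1) (fun ω => ω.2 i) ≤
      (A true i ^ 2 / P true + A true i ^ 2 / P false) * K := by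
    intro i
    unfold mutualInfo
    simp only [hPac, hPa, hPc]
    rw [Fintype.sum_bool]
    have ht := term_le (hP0 true) (hAP true i) hρ0 hρ1
    have hf := term_le (hP0 false) (hAP false i) hρ0 hρ1
    rw [hAsum i, neg_sq] at hf
    rw [hAsum i]
    calc _ ≤ A true i ^ 2 / P true * K + A true i ^ 2 / P false * K := add_le_add ht hf
      _ = _ := by ring
  have hbes : ∑ i, A true i ^ 2 ≤ P true * P false := by
    have hb := bessel (n := n) (ind true)
    have hsq : ∀ x, ind true x ^ 2 = ind true x := by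
      intro x; simp only [hind]; split_ifs <;> norm_num
    rw [Finset.sum_congr rfl (fun x _ => hsq x)] at hb
    have : P false = 1 - P true := by linarith
    rw [this]
    have hb' : ∑ i, A true i ^ 2 ≤ P true - P true ^ 2 := hb
    nlinarith
  have hS0 : 0 ≤ ∑ i, A true i ^ 2 := Finset.sum_nonneg (fun i _ => sq_nonneg _)
  rw [← psi_eq_h2 h0 h1]
  calc ∑ i, mutualInfo (bscLaw n ε) (fun ω => f ω.1) (fun ω => ω.2 i)
      ≤ ∑ i, (A true i ^ 2 / P true + A true i ^ 2 / P false) * K :=
        Finset.sum_le_sum (fun i _ => hI i)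
    _ = ((∑ i, A true i ^ 2) / P true + (∑ i, A true i ^ 2) / P false) * K := by
        rw [← Finset.sum_mul, Finset.sum_add_distrib, Finset.sum_div, Finset.sum_div]
    _ ≤ 1 * K := by
        apply mul_le_mul_of_nonneg_right _ hK0
        set S := ∑ i, A true i ^ 2
        rcases (hP0 true).eq_or_lt with hp | hp
        · have : S = 0 := by
            rw [← hp, zero_mul] at hbes; linarith
          rw [this]; simp
        · rcases (hP0 false).eq_or_lt with hq | hq
          · have : S = 0 := by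
              rw [← hq, mul_zero] at hbes; linarith
            rw [this]; simp
          · rw [div_add_div _ _ hp.ne' hq.ne', div_le_one (by positivity)]
            nlinarith
    _ = psi (1 - 2 * ε) / Real.log 2 := by rw [one_mul]

end Vale.Agent.Results.P322.CoordSumAll
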